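import Mathlib

/-! Definitions used in the statement for P172. -/

open Set

namespace Vale.Agent.P172

/-- `c` restricted to `[0, dist x y]` is a unit speed geodesic segment from `x` to `y`. -/
def IsGeod {X : Type} [MetricSpace X] (c : ℝ → X) (x y : X) : Prop :=
  c 0 = x ∧ c (dist x y) = y ∧
    ∀ s ∈ Icc 0 (dist x y), ∀ t ∈ Icc 0 (dist x y), dist (c s) (c t) = |s - t|

/-- `X` is geodesic and every geodesic triangle of `X` is no fatter than its comparison triangle in
the model plane `M`: for every
comparison triangle the distance between points on two sides is at most the distance between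
the comparison points. -/
def IsCAT (M : Type) [MetricSpace M] (X : Type) [MetricSpace X] : Prop :=
  (∀ x y : X, ∃ c, IsGeod c x y) ∧
    ∀ (x y z : X) (c c' : ℝ → X), IsGeod c x y → IsGeod c' x z →
      ∀ (x' y' z' : M) (e e' : ℝ → M), IsGeod e x' y' → IsGeod e' x' z' →
        dist x' y' = dist x y → dist x' z' = dist x z → dist y' z' = dist y z →
        ∀ s ∈ Icc 0 (dist x y), ∀ t ∈ Icc 0 (dist x z), dist (c s) (c' t) ≤ dist (e s) (e' t)

end Vale.Agent.P172
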