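import Vale.Agent.P172.Defs
import Vale.Agent.P198.C2.Mink

/-! Hyperbolic 3-space is a proper CAT(-1) space. -/

open Set Real

namespace Vale.Agent.P172

open Vale.Agent.P198 Vale.Agent.P198.C2

theorem perp_nonneg {y v : V} (hy : mink y y = -1) (hv : mink v y = 0) :
    v 1 ^ 2 + v 2 ^ 2 + v 3 ^ 2 ≤ mink v v * y 0 ^ 2 := by
  simp only [mink] at hy hv ⊢
  have h0 : v 0 * y 0 = v 1 * y 1 + v 2 * y 2 + v 3 * y 3 := by linarith
  have h1 : y 0 ^ 2 = 1 + y 1 ^ 2 + y 2 ^ 2 + y 3 ^ 2 := by nlinarith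
  have h2 : (-(v 0 * v 0) + v 1 * v 1 + v 2 * v 2 + v 3 * v 3) * y 0 ^ 2 =
      -(v 0 * y 0) ^ 2 + (v 1 ^ 2 + v 2 ^ 2 + v 3 ^ 2) * y 0 ^ 2 := by ring
  rw [h2, h0, h1]
  nlinarith [sq_nonneg (v 1 * y 2 - v 2 * y 1), sq_nonneg (v 1 * y 3 - v 3 * y 1),
    sq_nonneg (v 2 * y 3 - v 3 * y 2)]

theorem perp_pos {y v : V} (hy : mink y y = -1) (hv : mink v y = 0) : 0 ≤ mink v v := by
  have h := perp_nonneg hy hv
  have h1 : 0 < y 0 ^ 2 := by
    simp only [mink] at hy
    nlinarith [sq_nonneg (y 1), sq_nonneg (y 2), sq_nonneg (y 3)]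
  by_contra hc
  push Not at hc
  nlinarith [sq_nonneg (v 1), sq_nonneg (v 2), sq_nonneg (v 3), mul_pos (neg_pos.2 hc) h1]

theorem perp_zero {y v : V} (hy : mink y y = -1) (hv : mink v y = 0) (h : mink v v = 0) :
    v = 0 := by
  have h1 := perp_nonneg hy hv
  rw [h, zero_mul] at h1
  have a1 : v 1 = 0 := by nlinarith [sq_nonneg (v 1), sq_nonneg (v 2), sq_nonneg (v 3)]
  have a2 : v 2 = 0 := by nlinarith [sq_nonneg (v 1), sq_nonneg (v 2), sq_nonneg (v 3)]
  have a3 : v 3 = 0 := by nlinarith [sq_nonneg (v 1), sq_nonneg (v 2), sq_nonneg (v 3)]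
  have a0 : v 0 = 0 := by
    simp only [mink, a1, a2, a3] at h
    nlinarith
  funext i
  fin_cases i
  · exact a0
  · exact a1
  · exact a2
  · exact a3

theorem same_cone {a b : V} (ha : mink a a = -1) (hb : mink b b = -1) (h0 : 0 < a 0)
    (h : mink a b < 0) : 0 < b 0 := by
  by_contra hc
  push Not at hc
  simp only [mink] at ha hb h
  have h1 : 0 ≤ -(a 0 * b 0) := by nlinarith
  have h2 : (a 1 * b 1 + a 2 * b 2 + a 3 * b 3) ^ 2 ≤ (a 0 * b 0) ^ 2 := by
    have e1 : a 0 ^ 2 = 1 + a 1 ^ 2 + a 2 ^ 2 + a 3 ^ 2 := by nlinarith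
    have e2 : b 0 ^ 2 = 1 + b 1 ^ 2 + b 2 ^ 2 + b 3 ^ 2 := by nlinarith
    rw [mul_pow, e1, e2]
    nlinarith [sq_nonneg (a 1 * b 2 - a 2 * b 1), sq_nonneg (a 1 * b 3 - a 3 * b 1),
      sq_nonneg (a 2 * b 3 - a 3 * b 2), sq_nonneg (a 1), sq_nonneg (a 2), sq_nonneg (a 3),
      sq_nonneg (b 1), sq_nonneg (b 2), sq_nonneg (b 3)]
  nlinarith

theorem one_le_mink (x y : H3) : 1 ≤ -mink x.1 y.1 := by
  obtain ⟨a, ha, ha0⟩ := x
  obtain ⟨b, hb, hb0⟩ := y
  have hp : mink (a + mink a b • b) b = 0 := by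
    simp only [mink, Pi.add_apply, Pi.smul_apply, smul_eq_mul] at hb ⊢
    linear_combination (-(a 0 * b 0) + a 1 * b 1 + a 2 * b 2 + a 3 * b 3) * hb
  have h1 := perp_pos hb hp
  have h2 : mink (a + mink a b • b) (a + mink a b • b) = mink a b ^ 2 - 1 := by
    simp only [mink, Pi.add_apply, Pi.smul_apply, smul_eq_mul] at ha hb ⊢
    linear_combination ha + (-(a 0 * b 0) + a 1 * b 1 + a 2 * b 2 + a 3 * b 3) ^ 2 * hb
  have h3 : mink a b ≤ 0 := by
    by_contra hc
    push Not at hc
    have hb' : mink (-b) (-b) = -1 := by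
      simp only [mink, Pi.neg_apply] at hb ⊢
      linarith
    have hab : mink a (-b) < 0 := by
      simp only [mink, Pi.neg_apply] at hc ⊢
      linarith
    have := same_cone ha hb' ha0 hab
    simp only [Pi.neg_apply] at this
    linarith
  show 1 ≤ -mink a b
  nlinarith

theorem cosh_hdist (x y : H3) : cosh (hdist x y) = -mink x.1 y.1 :=
  cosh_arcosh (one_le_mink x y)

theorem hdist_nonneg (x y : H3) : 0 ≤ hdist x y := arcosh_nonneg (one_le_mink x y)

theorem hdist_tri (x y z : H3) : hdist x z ≤ hdist x y + hdist y z := by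
  have ha := cosh_hdist x y
  have hb := cosh_hdist y z
  have hc := cosh_hdist x z
  have pa := hdist_nonneg x y
  have pb := hdist_nonneg y z
  have pc := hdist_nonneg x z
  have hx := x.2.1
  have hy := y.2.1
  have hz := z.2.1
  generalize hdist x y = a at *
  generalize hdist y z = b at *
  generalize hdist x z = c at *
  generalize x.1 = x at *
  generalize y.1 = y at *
  generalize z.1 = z at *
  have sa : 0 ≤ sinh a := sinh_nonneg_iff.2 pa
  have sb : 0 ≤ sinh b := sinh_nonneg_iff.2 pb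
  have key : ∀ t : ℝ, 0 ≤ sinh b ^ 2 * (t * t) + 2 * (cosh a * cosh b - cosh c) * t +
      sinh a ^ 2 := by
    intro t
    have hp : mink (x - cosh a • y + t • (z - cosh b • y)) y = 0 := by
      simp only [mink, Pi.add_apply, Pi.sub_apply, Pi.smul_apply, smul_eq_mul] at ha hb hy ⊢
      linear_combination ha + t * hb - (cosh a + t * cosh b) * hy
    have h1 := perp_pos hy hp
    have h2 : mink (x - cosh a • y + t • (z - cosh b • y)) (x - cosh a • y + t • (z - cosh b • y)) =
        sinh b ^ 2 * (t * t) + 2 * (cosh a * cosh b - cosh c) * t + sinh a ^ 2 := by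
      rw [sinh_sq, sinh_sq]
      simp only [mink, Pi.add_apply, Pi.sub_apply, Pi.smul_apply, smul_eq_mul] at ha hb hc hx hy hz ⊢
      linear_combination hx + (t * t) * hz + (cosh a + t * cosh b) ^ 2 * hy + 2 * t * hc -
        2 * (cosh a + t * cosh b) * ha - 2 * t * (cosh a + t * cosh b) * hb
    rwa [h2] at h1
  have hd := discrim_le_zero key
  rw [discrim] at hd
  have h3 : cosh c ≤ cosh (a + b) := by
    rw [cosh_add]
    by_contra hcon
    push Not at hcon
    nlinarith [mul_nonneg sa sb]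
  rw [cosh_le_cosh, abs_of_nonneg pc, abs_of_nonneg (add_nonneg pa pb)] at h3
  exact h3

/-- Hyperbolic space with the hyperbolic metric. -/
def HS : Type := H3

noncomputable instance : MetricSpace HS where
  dist x y := hdist x y
  dist_self x := by
    show arcosh (-mink x.1 x.1) = 0
    rw [x.2.1, neg_neg, arcosh_zero]
  dist_comm x y := by
    show arcosh (-mink x.1 y.1) = arcosh (-mink y.1 x.1)
    rw [mink_comm]
  dist_triangle x y z := hdist_tri x y z
  eq_of_dist_eq_zero := by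
    intro x y h
    have h1 : -mink x.1 y.1 = 1 := (arcosh_eq_zero_iff (one_le_mink x y)).1 h
    have hx := x.2.1
    have hy := y.2.1
    have h2 : x.1 - y.1 = 0 := by
      refine perp_zero hy ?_ ?_
      · simp only [mink, Pi.sub_apply] at h1 hy ⊢
        linarith
      · simp only [mink, Pi.sub_apply] at h1 hx hy ⊢
        linarith
    exact Subtype.ext (sub_eq_zero.1 h2)

/-- The identity map from the hyperboloid to the metric space. -/
def toHS (x : H3) : HS := x

theorem dist_HS (x y : HS) : dist x y = hdist x y := rfl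

theorem cont_toHS : Continuous toHS := by
  rw [continuous_iff_continuousAt]
  intro x
  rw [ContinuousAt, tendsto_iff_dist_tendsto_zero]
  have h1 : Continuous fun y : H3 => hdist y x := by
    refine continuousOn_arcosh.comp_continuous ?_ fun y => one_le_mink y x
    exact (cont_mink.comp (continuous_subtype_val.prodMk continuous_const)).neg
  have h2 := h1.tendsto x
  have h3 : hdist x x = 0 := dist_self (toHS x)
  rw [h3] at h2
  exact h2

theorem bd_sub {K : Set HS} (hK : Bornology.IsBounded K) :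
    ∃ R : ℝ, ∀ y : H3, toHS y ∈ K → y.1 0 ≤ R := by
  obtain ⟨r, hr⟩ := hK.subset_closedBall (toHS e0)
  refine ⟨cosh r, fun y hy => ?_⟩
  have h1 : hdist y e0 ≤ r := hr hy
  have h2 := cosh_hdist y e0
  have h3 : -mink y.1 e0.1 = y.1 0 := by simp [mink, e0]
  have h4 : cosh (hdist y e0) ≤ cosh r := by
    rw [cosh_le_cosh, abs_of_nonneg (hdist_nonneg _ _)]
    exact h1.trans (le_abs_self r)
  rw [← h3, ← h2]
  exact h4

instance : ProperSpace HS where
  isCompact_closedBall x r := by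
    obtain ⟨R, hR⟩ := bd_sub (Metric.isBounded_closedBall (x := x) (r := r))
    refine ((cpt_H3 R).image cont_toHS).of_isClosed_subset Metric.isClosed_closedBall ?_
    intro y hy
    exact ⟨y, hR y hy, rfl⟩

theorem geod_HS (x y : HS) : ∃ c, IsGeod c x y := by
  by_cases hxy : x = y
  · subst hxy
    refine ⟨fun _ => x, rfl, rfl, ?_⟩
    intro s hs t ht
    rw [dist_self] at hs ht
    rw [dist_self, le_antisymm hs.2 hs.1, le_antisymm ht.2 ht.1]
    simp
  have hD : 0 < dist x y := dist_pos.2 hxy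
  have hc : cosh (dist x y) = -mink (show H3 from x).1 (show H3 from y).1 := cosh_hdist x y
  set D := dist x y with hDdef
  have hs : 0 < sinh D := sinh_pos_iff.2 hD
  obtain ⟨a, ha, ha0⟩ := x
  obtain ⟨b, hb, hb0⟩ := y
  simp only at hc
  set u : V := (sinh D)⁻¹ • (b - cosh D • a) with hu
  have hua : mink a u = 0 := by
    rw [hu, mink_smul_right]
    simp only [mink, Pi.sub_apply, Pi.smul_apply, smul_eq_mul] at ha hc ⊢
    have : -(a 0 * (b 0 - cosh D * a 0)) + a 1 * (b 1 - cosh D * a 1) +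
        a 2 * (b 2 - cosh D * a 2) + a 3 * (b 3 - cosh D * a 3) = 0 := by
      linear_combination hc - cosh D * ha
    rw [this, mul_zero]
  have huu : mink u u = 1 := by
    rw [hu, mink_smul]
    have : mink (b - cosh D • a) (b - cosh D • a) = sinh D ^ 2 := by
      rw [sinh_sq]
      simp only [mink, Pi.sub_apply, Pi.smul_apply, smul_eq_mul] at ha hb hc ⊢
      linear_combination hb + cosh D ^ 2 * ha - 2 * cosh D * hc
    rw [this]
    field_simp
  have hm : ∀ s t : ℝ, mink (cosh s • a + sinh s • u) (cosh t • a + sinh t • u) =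
      -cosh (s - t) := by
    intro s t
    rw [cosh_sub]
    simp only [mink, Pi.add_apply, Pi.smul_apply, smul_eq_mul] at ha hua huu ⊢
    linear_combination cosh s * cosh t * ha + sinh s * sinh t * huu +
      (cosh s * sinh t + sinh s * cosh t) * hua
  have hmem : ∀ s : ℝ, mink (cosh s • a + sinh s • u) (cosh s • a + sinh s • u) = -1 ∧
      0 < (cosh s • a + sinh s • u) 0 := by
    intro s
    have h1 : mink (cosh s • a + sinh s • u) (cosh s • a + sinh s • u) = -1 := by
      rw [hm, sub_self, cosh_zero]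
    refine ⟨h1, same_cone ha h1 ha0 ?_⟩
    have h2 := hm 0 s
    simp only [cosh_zero, sinh_zero, one_smul, zero_smul, add_zero] at h2
    rw [h2]
    exact neg_neg_of_pos (cosh_pos _)
  refine ⟨fun s => (⟨cosh s • a + sinh s • u, hmem s⟩ : H3), ?_, ?_, ?_⟩
  · exact Subtype.ext (by simp)
  · refine Subtype.ext ?_
    show cosh D • a + sinh D • u = b
    rw [hu, smul_smul, mul_inv_cancel₀ hs.ne', one_smul]
    abel
  · intro s _ t _
    show arcosh (-mink (cosh s • a + sinh s • u) (cosh t • a + sinh t • u)) = |s - t|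
    rw [hm, neg_neg, ← cosh_abs, arcosh_cosh (abs_nonneg _)]

/-- The hyperbolic Stewart formula in a space that embeds in the hyperboloid. -/
theorem stewart {X : Type} [MetricSpace X] (φ : X → V) (hφ : ∀ a b, cosh (dist a b) = -mink (φ a) (φ b))
    {c : ℝ → X} {x y : X} (h : IsGeod c x y) {s : ℝ} (hs : s ∈ Icc 0 (dist x y)) (p : X) :
    sinh (dist x y) * cosh (dist p (c s)) =
      sinh (dist x y - s) * cosh (dist p x) + sinh s * cosh (dist p y) := by
  obtain ⟨h0, h1, h2⟩ := h
  have hD : 0 ≤ dist x y := dist_nonneg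
  have e1 : dist (c s) x = s := by
    have := h2 s hs 0 ⟨le_rfl, hD⟩
    rwa [h0, sub_zero, abs_of_nonneg hs.1] at this
  have e2 : dist (c s) y = dist x y - s := by
    have := h2 s hs (dist x y) ⟨hD, le_rfl⟩
    rwa [h1, abs_sub_comm, abs_of_nonneg (sub_nonneg.2 hs.2)] at this
  have a1 := hφ (c s) x
  have a2 := hφ (c s) y
  have a3 := hφ x y
  have a4 := hφ (c s) (c s)
  have a5 := hφ x x
  have a6 := hφ y y
  rw [dist_self, cosh_zero] at a4 a5 a6
  rw [e1] at a1
  rw [e2] at a2
  rw [hφ p, hφ p, hφ p]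
  set D := dist x y
  obtain ⟨r, hr⟩ : ∃ r, r = D - s := ⟨_, rfl⟩
  have hDr : D = r + s := by rw [hr]; ring
  rw [← hr] at a2 ⊢
  rw [hDr] at a3 ⊢
  have hw : sinh (r + s) • φ (c s) - sinh r • φ x - sinh s • φ y = 0 := by
    have hp : mink (sinh (r + s) • φ (c s) - sinh r • φ x - sinh s • φ y) (φ (c s)) = 0 := by
      rw [sinh_add]
      simp only [mink, Pi.sub_apply, Pi.smul_apply, smul_eq_mul] at a1 a2 a4 ⊢
      linear_combination (sinh r * cosh s + cosh r * sinh s) * a4 - sinh r * a1 - sinh s * a2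
    refine perp_zero (y := φ (c s)) (by linarith) hp ?_
    rw [cosh_add] at a3
    rw [sinh_add]
    have q1 := cosh_sq r
    have q2 := cosh_sq s
    simp only [mink, Pi.sub_apply, Pi.smul_apply, smul_eq_mul] at a1 a2 a3 a4 a5 a6 ⊢
    linear_combination (sinh r * cosh s + cosh r * sinh s) ^ 2 * a4 + sinh r ^ 2 * a5 +
      sinh s ^ 2 * a6 - 2 * (sinh r * cosh s + cosh r * sinh s) * sinh r * a1 -
      2 * (sinh r * cosh s + cosh r * sinh s) * sinh s * a2 + 2 * sinh r * sinh s * a3 +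
      sinh s ^ 2 * q1 + sinh r ^ 2 * q2
  have hw' := fun i => congrFun hw i
  have w0 := hw' 0
  have w1 := hw' 1
  have w2 := hw' 2
  have w3 := hw' 3
  simp only [Pi.sub_apply, Pi.smul_apply, smul_eq_mul, Pi.zero_apply] at w0 w1 w2 w3
  simp only [mink]
  linear_combination φ p 0 * w0 - φ p 1 * w1 - φ p 2 * w2 - φ p 3 * w3

/-- The upper half plane in the hyperboloid. -/
noncomputable def emb (z : UpperHalfPlane) : V :=
  ![(z.re ^ 2 + z.im ^ 2 + 1) / (2 * z.im), (z.re ^ 2 + z.im ^ 2 - 1) / (2 * z.im), z.re / z.im, 0]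

theorem emb_dist (z w : UpperHalfPlane) : cosh (dist z w) = -mink (emb z) (emb w) := by
  rw [UpperHalfPlane.cosh_dist']
  have h1 := z.im_pos.ne'
  have h2 := w.im_pos.ne'
  simp only [mink, emb, Matrix.cons_val_zero, Matrix.cons_val_one, Matrix.cons_val]
  field_simp
  ring

theorem two_side {X : Type} [MetricSpace X] (φ : X → V)
    (hφ : ∀ a b, cosh (dist a b) = -mink (φ a) (φ b)) {c c' : ℝ → X} {x y z : X}
    (h : IsGeod c x y) (h' : IsGeod c' x z) {s t : ℝ} (hs : s ∈ Icc 0 (dist x y))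
    (ht : t ∈ Icc 0 (dist x z)) :
    sinh (dist x y) * sinh (dist x z) * cosh (dist (c s) (c' t)) =
      sinh (dist x y - s) * (sinh (dist x z) * cosh t) + sinh s *
        (sinh (dist x z - t) * cosh (dist x y) + sinh t * cosh (dist y z)) := by
  have e1 := stewart φ hφ h hs (c' t)
  have e2 := stewart φ hφ h' ht y
  have e3 : dist (c' t) x = t := by
    have := h'.2.2 t ht 0 ⟨le_rfl, dist_nonneg⟩
    rwa [h'.1, sub_zero, abs_of_nonneg ht.1] at this
  rw [e3, dist_comm (c' t) (c s), dist_comm (c' t) y] at e1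
  rw [dist_comm y x] at e2
  linear_combination sinh (dist x z) * e1 + sinh s * e2

theorem geod_dist {X : Type} [MetricSpace X] {c : ℝ → X} {x y : X} (h : IsGeod c x y) {s : ℝ}
    (hs : s ∈ Icc 0 (dist x y)) : dist (c s) x = s := by
  have := h.2.2 s hs 0 ⟨le_rfl, dist_nonneg⟩
  rwa [h.1, sub_zero, abs_of_nonneg hs.1] at this

theorem cat_HS : IsCAT UpperHalfPlane HS := by
  refine ⟨geod_HS, ?_⟩
  intro x y z c c' h h' x' y' z' e e' k k' d1 d2 d3 s hs t ht
  have hs' : s ∈ Icc 0 (dist x' y') := by rwa [d1]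
  have ht' : t ∈ Icc 0 (dist x' z') := by rwa [d2]
  rcases eq_or_lt_of_le (dist_nonneg (x := x) (y := y)) with h0 | h0
  · have : s = 0 := le_antisymm (h0 ▸ hs.2) hs.1
    subst this
    rw [h.1, k.1, dist_comm x, dist_comm x', geod_dist h' ht, geod_dist k' ht']
  rcases eq_or_lt_of_le (dist_nonneg (x := x) (y := z)) with h1 | h1
  · have : t = 0 := le_antisymm (h1 ▸ ht.2) ht.1
    subst this
    rw [h'.1, k'.1, geod_dist h hs, geod_dist k hs']
  have e1 := two_side (fun a : HS => (show H3 from a).1) (fun a b => cosh_hdist a b) h h' hs ht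
  have e2 := two_side emb emb_dist k k' hs' ht'
  rw [d1, d2, d3, ← e1] at e2
  have p : 0 < sinh (dist x y) * sinh (dist x z) :=
    mul_pos (sinh_pos_iff.2 h0) (sinh_pos_iff.2 h1)
  have e3 := mul_left_cancel₀ p.ne' e2
  have e4 := e3.ge
  rwa [cosh_le_cosh, abs_of_nonneg dist_nonneg, abs_of_nonneg dist_nonneg] at e4

end Vale.Agent.P172
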